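import Mathlib

/-!
# Counting lattice points in the windows
-/

set_option linter.all false

namespace Vale.Agent.N279S

open Finset

/-- The lower end of the window of the column `q`. -/
noncomputable def lo (σ θ : ℝ) (q : ℕ) : ℤ := ⌈σ * q + θ⌉

/-- The upper end of the window of the column `q`. -/
noncomputable def hi (σ θ : ℝ) (D q : ℕ) : ℤ := ⌊σ * q + θ⌋ + D - 9 * q

/-- The rows that meet two windows at distance `t`. -/
noncomputable def U (σ θ : ℝ) (D Q t : ℕ) : Finset ℤ :=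
  (range (Q + 1 - t)).biUnion fun q => Icc (lo σ θ (q + t)) (hi σ θ D q)

/-- The entries whose row also meets the window `t` steps further. -/
noncomputable def Lam (σ θ : ℝ) (D Q t : ℕ) : Finset (ℕ × ℤ) :=
  (range (Q + 1)).biUnion fun q => (Icc (lo σ θ (q + t)) (hi σ θ D q)).image (Prod.mk q)

variable {σ θ : ℝ} {D Q : ℕ}

theorem mem_U {t : ℕ} {j : ℤ} :
    j ∈ U σ θ D Q t ↔ ∃ q, q + t ≤ Q ∧ lo σ θ (q + t) ≤ j ∧ j ≤ hi σ θ D q := by
  simp only [U, mem_biUnion, mem_range, mem_Icc]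
  exact exists_congr fun q => and_congr (by omega) Iff.rfl

theorem mem_Lam {t q : ℕ} {j : ℤ} :
    (q, j) ∈ Lam σ θ D Q t ↔ q ≤ Q ∧ lo σ θ (q + t) ≤ j ∧ j ≤ hi σ θ D q := by
  simp only [Lam, mem_biUnion, mem_range, mem_image, mem_Icc, Prod.mk.injEq]
  constructor
  · rintro ⟨q', h1, j', h2, rfl, rfl⟩
    exact ⟨by omega, h2⟩
  · rintro ⟨h1, h2⟩
    exact ⟨q, by omega, j, h2, rfl, rfl⟩

theorem lo_mono (hσ : 9 ≤ σ) (θ : ℝ) : Monotone (lo σ θ) := fun p q h =>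
  Int.ceil_mono (by gcongr)

theorem hi_mono (hσ : 9 ≤ σ) (θ : ℝ) (D : ℕ) : Monotone (hi σ θ D) := by
  refine monotone_nat_of_le_succ fun q => ?_
  have h : ⌊σ * q + θ + (9 : ℤ)⌋ ≤ ⌊σ * (q + 1 : ℕ) + θ⌋ := Int.floor_mono (by push_cast; linarith)
  rw [Int.floor_add_intCast] at h
  unfold hi
  push_cast at h ⊢
  omega

theorem U_anti (hσ : 9 ≤ σ) {t t' : ℕ} (h : t ≤ t') : U σ θ D Q t' ⊆ U σ θ D Q t := by
  intro j hj
  obtain ⟨q, h1, h2, h3⟩ := mem_U.1 hj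
  exact mem_U.2 ⟨q, by omega, (lo_mono hσ θ (by omega)).trans h2, h3⟩

theorem sum_sq (n : ℕ) (y : ℝ) : ∑ i ∈ range n, max (y - 9 * i) 0 ≤ (y + 9 / 2) ^ 2 / 18 := by
  induction n generalizing y with
  | zero => simp only [range_zero, sum_empty]; positivity
  | succ n ih =>
    rcases le_or_gt y 0 with h | h
    · rw [sum_eq_zero fun i _ => max_eq_right (by linarith [Nat.cast_nonneg (α := ℝ) i])]
      positivity
    · rw [sum_range_succ']
      have h1 := ih (y - 9)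
      have h2 : ∀ i : ℕ, y - 9 * (i + 1 : ℕ) = y - 9 - 9 * i := fun i => by push_cast; ring
      simp only [h2, Nat.cast_zero, mul_zero, sub_zero, max_eq_left h.le]
      nlinarith

theorem card_Icc_le (t q : ℕ) :
    ((Icc (lo σ θ (q + t)) (hi σ θ D q)).card : ℝ) ≤ max (D - σ * t + 1 - 9 * q) 0 := by
  rcases le_or_gt (lo σ θ (q + t)) (hi σ θ D q + 1) with h | h
  · refine le_trans ?_ (le_max_left _ _)
    have h1 := Int.card_Icc_of_le _ _ h
    have h2 := Int.le_ceil (σ * (q + t : ℕ) + θ)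
    have h3 := Int.floor_le (σ * q + θ)
    have h4 := congrArg (Int.cast (R := ℝ)) h1
    unfold lo hi at h4
    unfold lo hi
    push_cast at h2 h4 ⊢
    linarith
  · rw [Icc_eq_empty (by omega), card_empty, Nat.cast_zero]
    exact le_max_right _ _

theorem card_Lam_le (t : ℕ) : ((Lam σ θ D Q t).card : ℝ) ≤ (D - σ * t + 11 / 2) ^ 2 / 18 := by
  have h1 : ((Lam σ θ D Q t).card : ℝ) ≤ ∑ q ∈ range (Q + 1), max (D - σ * t + 1 - 9 * q) 0 := by
    refine le_trans (Nat.cast_le.2 card_biUnion_le) ?_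
    rw [Nat.cast_sum]
    exact sum_le_sum fun q _ => (Nat.cast_le.2 card_image_le).trans (card_Icc_le t q)
  refine h1.trans ((sum_sq _ _).trans (le_of_eq ?_))
  ring

theorem card_U_lt (hσ : 9 ≤ σ) {t : ℕ} (hE : σ ≤ D - σ * t) :
    ((U σ θ D Q t).card : ℝ) < σ * (D - σ * t) / 9 - σ ^ 2 / 18 + 11 * σ / 18 + 17 / 8 := by
  set E := D - σ * t with hE'
  set q₀ := ⌊(E - σ + 10) / 9⌋₊ with hq₀
  have f1 : (q₀ : ℝ) ≤ (E - σ + 10) / 9 := Nat.floor_le (by linarith)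
  have f2 : (E - σ + 10) / 9 < q₀ + 1 := Nat.lt_floor_add_one _
  have h1 : U σ θ D Q t ⊆ Ico (lo σ θ t) (lo σ θ (q₀ + t)) ∪ (range (Q + 1)).biUnion fun i =>
      Icc (lo σ θ (q₀ + i + t)) (hi σ θ D (q₀ + i)) := by
    intro j hj
    obtain ⟨q, h1, h2, h3⟩ := mem_U.1 hj
    simp only [mem_union, mem_Ico, mem_biUnion, mem_range, mem_Icc]
    rcases le_or_gt q₀ q with h | h
    · obtain ⟨i, rfl⟩ := Nat.exists_eq_add_of_le h
      exact Or.inr ⟨i, by omega, h2, h3⟩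
    · rcases lt_or_ge j (lo σ θ (q₀ + t)) with h4 | h4
      · exact Or.inl ⟨(lo_mono hσ θ (by omega)).trans h2, h4⟩
      · exact Or.inr ⟨0, by omega, h4, h3.trans (hi_mono hσ θ D h.le)⟩
  have h2 : ((Ico (lo σ θ t) (lo σ θ (q₀ + t))).card : ℝ) < σ * q₀ + 1 := by
    have h4 := congrArg (Int.cast (R := ℝ))
      (Int.card_Ico_of_le _ _ (lo_mono hσ θ (Nat.le_add_left t q₀)))
    have h5 := Int.le_ceil (σ * t + θ)
    have h6 := Int.ceil_lt_add_one (σ * (q₀ + t : ℕ) + θ)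
    unfold lo at h4 ⊢
    push_cast at h4 h6 ⊢
    linarith
  have h3 : (((range (Q + 1)).biUnion fun i =>
      Icc (lo σ θ (q₀ + i + t)) (hi σ θ D (q₀ + i))).card : ℝ) ≤
      (E + 1 - 9 * q₀ + 9 / 2) ^ 2 / 18 := by
    refine le_trans (Nat.cast_le.2 card_biUnion_le) (le_trans ?_ (sum_sq (Q + 1) _))
    rw [Nat.cast_sum]
    refine sum_le_sum fun i _ => (card_Icc_le t (q₀ + i)).trans (le_of_eq ?_)
    rw [hE']
    push_cast
    ring_nf
  have h4 : ((U σ θ D Q t).card : ℝ) ≤ _ :=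
    Nat.cast_le.2 ((card_le_card h1).trans (card_union_le _ _))
  rw [Nat.cast_add] at h4
  have h5 : (E - 9 * q₀ + 11 / 2 - σ) ^ 2 ≤ (9 / 2) ^ 2 := sq_le_sq' (by linarith) (by linarith)
  nlinarith

theorem lt_card_U (hσ : 9 ≤ σ) (hQ : D < 9 * (Q + 1)) {t : ℕ} (hE : σ - 9 ≤ D - σ * t) :
    σ * (D - σ * t) / 9 - σ ^ 2 / 18 + 7 * σ / 18 - 17 / 8 < (U σ θ D Q t).card := by
  set E := D - σ * t with hE'
  set q₀ := ⌊(E - σ + 9) / 9⌋₊ with hq₀
  have f1 : (q₀ : ℝ) ≤ (E - σ + 9) / 9 := Nat.floor_le (by linarith)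
  have f2 : (E - σ + 9) / 9 < q₀ + 1 := Nat.lt_floor_add_one _
  set y := E - 9 * q₀ with hy
  set n := ⌊(y + 8) / 9⌋₊ with hn
  have f3 : (n : ℝ) ≤ (y + 8) / 9 := Nat.floor_le (by linarith)
  have f4 : (y + 8) / 9 < n + 1 := Nat.lt_floor_add_one _
  have f5 : q₀ + n + t ≤ Q + 1 := by
    have h1 : (9 : ℝ) * t ≤ σ * t := by gcongr
    have h2 : ((9 * (q₀ + n + t) : ℕ) : ℝ) ≤ (D + 8 : ℕ) := by push_cast; linarith
    have h3 := Nat.cast_le.1 h2
    omega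
  set P : ℕ → Finset ℤ := fun q =>
    Ico (lo σ θ (q + t)) (min (hi σ θ D q + 1) (lo σ θ (q + 1 + t))) with hP
  have h1 : (range (q₀ + n)).biUnion P ⊆ U σ θ D Q t := by
    intro j hj
    simp only [hP, mem_biUnion, mem_range, mem_Ico, lt_min_iff] at hj
    obtain ⟨q, h1, h2, h3, -⟩ := hj
    exact mem_U.2 ⟨q, by omega, h2, by omega⟩
  have h2 : ((range (q₀ + n)).biUnion P).card = ∑ q ∈ range (q₀ + n), (P q).card := by
    have aux : ∀ p q, p < q → Disjoint (P p) (P q) := fun p q h => disjoint_left.2 fun j h1 h2 => by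
      simp only [hP, mem_Ico, lt_min_iff] at h1 h2
      have := lo_mono hσ θ (by omega : p + 1 + t ≤ q + t)
      omega
    refine card_biUnion fun p _ q _ h => ?_
    rcases lt_or_gt_of_ne h with h | h
    exacts [aux p q h, (aux q p h).symm]
  have h3 : ∀ q, (min (hi σ θ D q + 1) (lo σ θ (q + 1 + t)) - lo σ θ (q + t) : ℤ) ≤ (P q).card :=
    fun q => by rw [hP, Int.card_Ico]; exact Int.self_le_toNat _
  have g1 : ∀ q : ℕ, σ * q + θ + D - 9 * q < (hi σ θ D q + 1 : ℤ) := fun q => by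
    have := Int.lt_floor_add_one (σ * q + θ)
    unfold hi
    push_cast
    linarith
  have h4 : ∑ q ∈ range q₀, ((lo σ θ (q + 1 + t) : ℝ) - lo σ θ (q + t)) ≤
      ∑ q ∈ range q₀, ((P q).card : ℝ) := sum_le_sum fun q hq => by
    have h5 : ((q + 1 : ℕ) : ℝ) ≤ q₀ := Nat.cast_le.2 (mem_range.1 hq)
    have h6 : lo σ θ (q + 1 + t) ≤ hi σ θ D q + 1 := Int.ceil_le.2 (by
      refine le_trans ?_ (g1 q).le
      push_cast at h5 ⊢
      linarith)
    have h7 := h3 q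
    rw [min_eq_right h6] at h7
    exact_mod_cast h7
  have h5 : ∑ i ∈ range n, (y - 1 - 9 * i) ≤ ∑ i ∈ range n, ((P (q₀ + i)).card : ℝ) :=
    sum_le_sum fun i _ => by
      have h7 : ((min (hi σ θ D (q₀ + i) + 1) (lo σ θ (q₀ + i + 1 + t)) - lo σ θ (q₀ + i + t) : ℤ) :
        ℝ) ≤ (P (q₀ + i)).card := by exact_mod_cast h3 (q₀ + i)
      refine le_trans ?_ h7
      have h8 := g1 (q₀ + i)
      have h9 := Int.ceil_lt_add_one (σ * (q₀ + i + t : ℕ) + θ)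
      have h10 := Int.le_ceil (σ * (q₀ + i + 1 + t : ℕ) + θ)
      have h11 := Nat.cast_nonneg (α := ℝ) i
      rw [Int.cast_sub, Int.cast_min, le_sub_iff_add_le]
      unfold lo
      push_cast at h8 h9 h10 ⊢
      exact le_min (by linarith) (by linarith)
  have h6 : ∀ n : ℕ, ∑ i ∈ range n, (y - 1 - 9 * i) = n * (y - 1) - 9 * n * (n - 1) / 2 := by
    intro n
    induction n with
    | zero => simp
    | succ n ih => rw [sum_range_succ, ih]; push_cast; ring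
  rw [sum_range_sub (fun q => (lo σ θ (q + t) : ℝ))] at h4
  have h7 : ((∑ q ∈ range (q₀ + n), (P q).card : ℕ) : ℝ) ≤ (U σ θ D Q t).card :=
    Nat.cast_le.2 (h2 ▸ card_le_card h1)
  rw [sum_range_add, Nat.cast_add, Nat.cast_sum, Nat.cast_sum] at h7
  have h9 := Int.ceil_lt_add_one (σ * (0 + t : ℕ) + θ)
  have h10 := Int.le_ceil (σ * (q₀ + t : ℕ) + θ)
  unfold lo at h4
  rw [h6] at h5
  push_cast at h4 h9 h10
  have h11 : (9 * n - y - 7 / 2) ^ 2 ≤ (9 / 2) ^ 2 := sq_le_sq' (by linarith) (by linarith)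
  have h12 : E = y + 9 * q₀ := by rw [hy]; ring
  nlinarith [sq_nonneg (y + 7 / 2 - σ)]

theorem card_Lam_zero (d : ℕ) (h : ∀ q : ℕ, 9 * q < 3 * d → lo σ θ q = ⌊σ * q + θ⌋ + 1) :
    2 * (Lam σ θ (3 * d) (d / 3) 0).card ≤ (d + 1) * (d + 2) := by
  have h1 : ∀ q ∈ range (d / 3 + 1), (((Icc (lo σ θ (q + 0)) (hi σ θ (3 * d) q)).image
      (Prod.mk q)).card : ℤ) ≤ max (3 * d - 9 * q : ℤ) 1 := fun q hq => by
    refine (Nat.cast_le.2 card_image_le).trans ?_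
    rw [Int.card_Icc, add_zero]
    have h2 := mem_range.1 hq
    have h3 : ⌊σ * q + θ⌋ ≤ lo σ θ q := Int.floor_le_ceil _
    have h4 := h q
    unfold hi
    omega
  have h2 : ∀ n : ℕ, 2 * ∑ q ∈ range n, (3 * d - 9 * q : ℤ) = n * (6 * d - 9 * n + 9) := by
    intro n
    induction n with
    | zero => simp
    | succ n ih => rw [sum_range_succ, mul_add, ih]; push_cast; ring
  have h3 : ((Lam σ θ (3 * d) (d / 3) 0).card : ℤ) ≤
      ∑ q ∈ range (d / 3 + 1), max (3 * d - 9 * q : ℤ) 1 :=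
    (Nat.cast_le.2 card_biUnion_le).trans (by rw [Nat.cast_sum]; exact sum_le_sum h1)
  rw [sum_range_succ, sum_congr rfl (g := fun q : ℕ => (3 * d - 9 * q : ℤ)) fun q hq =>
    max_eq_left (by have := mem_range.1 hq; omega)] at h3
  have h4 := h2 (d / 3)
  generalize ∑ q ∈ range (d / 3), (3 * d - 9 * q : ℤ) = Z at h3 h4
  obtain ⟨Q, hQ | hQ | hQ⟩ : ∃ Q, d = 3 * Q ∨ d = 3 * Q + 1 ∨ d = 3 * Q + 2 := ⟨d / 3, by omega⟩
  all_goals
    rw [show d / 3 = Q by omega] at h3 h4 ⊢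
    rcases max_choice (3 * d - 9 * Q : ℤ) 1 with h5 | h5
    all_goals
      rw [h5] at h3
      subst hQ
      zify
      push_cast at h3 h4 ⊢
      nlinarith

/-- The choice of the slope. -/
theorem param {σ₀ δ : ℝ} (h9 : 9 ≤ σ₀) (hδ : 0 < δ) (D : ℕ) :
    ∃ (A B N : ℕ) (σ θ : ℝ), 0 < A ∧ 0 < B ∧ σ₀ ≤ σ ∧ σ ≤ σ₀ + δ ∧
      (∀ (q : ℕ) (p : ℤ), ((A : ℤ) + B) * p ≤ ((D : ℤ) - 9 * q) * B →
        -(((A : ℤ) + B) * p) ≤ ((D : ℤ) - 9 * q) * A →
          lo σ θ q ≤ N * q - p ∧ N * q - p ≤ hi σ θ D q) ∧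
      ∀ q : ℕ, 9 * q < D → lo σ θ q = ⌊σ * q + θ⌋ + 1 := by
  obtain ⟨n, hn, hp⟩ := Nat.exists_infinite_primes (D + ⌈9 / δ⌉₊ + 3)
  obtain ⟨N, hN⟩ : ∃ N, ⌊σ₀⌋₊ = N + 4 :=
    Nat.exists_eq_add_of_le' (Nat.le_floor (by push_cast; linarith))
  have f1 : ((N + 4 : ℕ) : ℝ) ≤ σ₀ := hN ▸ Nat.floor_le (by linarith)
  have f2 : σ₀ < (N + 4 : ℕ) + 1 := hN ▸ Nat.lt_floor_add_one _
  push_cast at f1 f2
  have n3 : (3 : ℝ) ≤ n := by exact_mod_cast (by omega : 3 ≤ n)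
  have n0 : (0 : ℝ) < n := by linarith
  have n9 : 9 / δ ≤ n := (Nat.le_ceil _).trans (Nat.cast_le.2 (by omega))
  rw [div_le_iff₀ hδ] at n9
  set B := ⌈n * ((σ₀ - N) / 9)⌉₊ with hB
  have f3 : n * ((σ₀ - N) / 9) ≤ B := Nat.le_ceil _
  have f4 : (B : ℝ) < n * ((σ₀ - N) / 9) + 1 :=
    Nat.ceil_lt_add_one (mul_nonneg n0.le (by linarith))
  have hB0 : 0 < B := Nat.cast_pos.1 (lt_of_lt_of_le (mul_pos n0 (by linarith)) f3)
  have hBn : B < n := Nat.cast_lt.1 (by nlinarith : (B : ℝ) < n)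
  obtain ⟨A, hA⟩ := Nat.exists_eq_add_of_le' hBn.le
  have hAB : (A : ℝ) + B = n := by rw [hA]; push_cast; ring
  set β : ℝ := B / n with hβ
  have hβn : β * n = B := div_mul_cancel₀ _ n0.ne'
  refine ⟨A, B, N, N + 9 * β, -(D * β), by omega, hB0, ?_, ?_, fun q p h1 h2 => ?_, fun q hq => ?_⟩
  · exact le_of_mul_le_mul_right (by nlinarith) n0
  · exact le_of_mul_le_mul_right (by nlinarith) n0
  · have h3 : ((A : ℝ) + B) * p ≤ ((D : ℝ) - 9 * q) * B := by exact_mod_cast h1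
    have h4 : -(((A : ℝ) + B) * p) ≤ ((D : ℝ) - 9 * q) * A := by exact_mod_cast h2
    rw [hAB, ← hβn] at h3
    rw [hAB, show (A : ℝ) = n - β * n by linarith] at h4
    have h5 : (p : ℝ) ≤ (D - 9 * q) * β := le_of_mul_le_mul_right (by linarith) n0
    have h6 : -(p : ℝ) ≤ (D - 9 * q) * (1 - β) := le_of_mul_le_mul_right (by linarith) n0
    refine ⟨Int.ceil_le.2 (by push_cast; linarith), ?_⟩
    have h7 : (N * q - p - D + 9 * q : ℤ) ≤ ⌊(N + 9 * β) * q + -(D * β)⌋ :=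
      Int.le_floor.2 (by push_cast; linarith)
    unfold hi
    omega
  · refine le_antisymm (Int.ceil_le_floor_add_one _) (Int.lt_ceil.2 ?_)
    refine lt_of_le_of_ne (Int.floor_le _) fun h => ?_
    generalize ⌊(N + 9 * β) * q + -(D * β)⌋ = z at h
    obtain ⟨e, rfl⟩ := Nat.exists_eq_add_of_lt hq
    have h1 : (((e + 1) * B : ℕ) : ℝ) = ((n * (N * q - z) : ℤ) : ℝ) := by
      push_cast at h ⊢
      rw [← hβn, h]
      ring
    have h2 : (n : ℤ) ∣ ((e + 1) * B : ℕ) := ⟨_, by exact_mod_cast h1⟩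
    rcases (Nat.Prime.dvd_mul hp).1 (Int.natCast_dvd_natCast.1 h2) with h3 | h3
    · have := Nat.le_of_dvd (by omega) h3
      omega
    · have := Nat.le_of_dvd hB0 h3
      omega

/-- Nested subsets of prescribed sizes. -/
theorem nested (M : ℕ) (V : ℕ → Finset ℤ) (φ : ℕ → ℕ) (hV : ∀ t, V (t + 1) ⊆ V t)
    (hφ : ∀ t, φ (t + 1) ≤ φ t) (hM : φ M = 0) (h : ∀ t < M, φ t ≤ (V t).card) :
    ∃ R : ℕ → Finset ℤ, Antitone R ∧ ∀ t, R t ⊆ V t ∧ (R t).card = φ t := by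
  induction M generalizing V φ with
  | zero =>
    refine ⟨fun _ => ∅, fun _ _ _ => le_rfl, fun t => ⟨empty_subset _, ?_⟩⟩
    have := antitone_nat_of_succ_le hφ (Nat.zero_le t)
    rw [card_empty]
    omega
  | succ M ih =>
    obtain ⟨R, h1, h2⟩ := ih (fun t => V (t + 1)) (fun t => φ (t + 1)) (fun t => hV _)
      (fun t => hφ _) hM fun t ht => h _ (by omega)
    obtain ⟨R₀, g1, g2, g3⟩ := exists_subsuperset_card_eq ((h2 0).1.trans (hV 0))
      ((h2 0).2.trans_le (hφ 0)) (h 0 (by omega))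
    refine ⟨fun t => Nat.casesOn t R₀ R, antitone_nat_of_succ_le fun t => ?_, fun t => ?_⟩
    · cases t
      exacts [g1, h1 (Nat.le_succ _)]
    · cases t
      exacts [⟨g2, g3⟩, h2 _]

end Vale.Agent.N279S
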