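import Vale.Agent.N279S.Lac

/-!
# A bound for the dimension of a linear system from the leading terms
-/

set_option linter.all false

namespace Vale.Agent.N279S

open Vale.Agent.P279 Vale.Agent.P279.H35 Vale.Agent.N279

section Lin

open MvPolynomial

theorem exists_comb {R : Type*} [CommRing R] [Nontrivial R] {J L : Type*} [Fintype J] [Fintype L]
    (v : J → L → R) (h : Fintype.card L < Fintype.card J) :
    ∃ g : J → R, ∑ i, g i • v i = 0 ∧ ∃ i, g i ≠ 0 := by
  rw [← Fintype.not_linearIndependent_iff]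
  intro hli
  have h1 := hli.fintype_card_le_finrank
  rw [Module.finrank_fintype_fun_eq_card] at h1
  omega

theorem comb_facts {R : Type*} [CommRing R] {ι : Type} {J : Type*} [Fintype J]
    {S : Finset (Fin 2 →₀ ℕ)} {m : ι → ℕ} {w : ι → Fin 2 → R} (P : J → MvPolynomial (Fin 2) R)
    (hS : ∀ j, (P j).support ⊆ S) (hm : ∀ j i, MultGE (w i) (m i) (P j)) (g : J → R) :
    (∑ j, g j • P j).support ⊆ S ∧ ∀ i, MultGE (w i) (m i) (∑ j, g j • P j) := by
  refine ⟨fun δ hδ => ?_, fun i => Finset.sum_induction _ _ (fun _ _ => MultGE.add) MultGE.zero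
    fun j _ => (hm j i).smul _⟩
  rw [mem_support_iff, coeff_sum] at hδ
  obtain ⟨j, -, hj⟩ := Finset.exists_ne_zero_of_sum_ne_zero hδ
  rw [coeff_smul, smul_eq_mul] at hj
  exact hS j (mem_support_iff.2 (right_ne_zero_of_mul hj))

/-- If a few extra linear conditions kill the linear system, a few vanishing coefficients do. -/
theorem exists_sub {R : Type*} [CommRing R] [IsDomain R] {ι : Type} {L : Type*} [Fintype L]
    (S : Finset (Fin 2 →₀ ℕ)) (m : ι → ℕ) (w : ι → Fin 2 → R)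
    (ψ : MvPolynomial (Fin 2) R →ₗ[R] (L → R))
    (h : ∀ P, P ≠ 0 → P.support ⊆ S → (∀ i, MultGE (w i) (m i) P) → ψ P ≠ 0) :
    ∃ S' ⊆ S, S.card ≤ S'.card + Fintype.card L ∧ ¬ Ex S' m w := by
  classical
  obtain ⟨S', hS', hmax⟩ := Finset.exists_max_image (S.powerset.filter fun T => ¬ Ex T m w)
    Finset.card ⟨∅, by
      rw [Finset.mem_filter]
      refine ⟨Finset.empty_mem_powerset S, ?_⟩
      rintro ⟨P, h0, h1, -⟩
      exact h0 (support_eq_empty.1 (Finset.subset_empty.1 h1))⟩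
  rw [Finset.mem_filter, Finset.mem_powerset] at hS'
  refine ⟨S', hS'.1, ?_, hS'.2⟩
  by_contra hlt
  have hex : ∀ s : (S \ S' : Finset _), Ex (insert s.1 S') m w := by
    intro s
    have hs := Finset.mem_sdiff.1 s.2
    by_contra hne
    have := hmax _ (Finset.mem_filter.2 ⟨Finset.mem_powerset.2
      (Finset.insert_subset hs.1 hS'.1), hne⟩)
    rw [Finset.card_insert_of_notMem hs.2] at this
    omega
  choose P hP0 hPS hPm using hex
  obtain ⟨g, hg, i, hi⟩ := exists_comb (fun s => ψ (P s)) (by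
    rw [Fintype.card_coe, Finset.card_sdiff_of_subset hS'.1]
    omega)
  obtain ⟨f1, f2⟩ := comb_facts P (fun s => (hPS s).trans
    (Finset.insert_subset (Finset.mem_sdiff.1 s.2).1 hS'.1)) hPm g
  refine h _ (fun h0 => ?_) f1 f2 (by simpa only [map_sum, map_smul] using hg)
  have h1 := congrArg (coeff i.1) h0
  rw [coeff_sum, Finset.sum_eq_single i (fun j _ hj => ?_) (by simp), coeff_smul, smul_eq_mul,
    coeff_zero] at h1
  · refine hS'.2 ⟨P i, hP0 i, fun δ hδ => ?_, hPm i⟩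
    refine (Finset.mem_insert.1 (hPS i hδ)).resolve_left ?_
    rintro rfl
    exact mul_ne_zero hi (mem_support_iff.1 hδ) h1
  · rw [coeff_smul, smul_eq_mul, notMem_support_iff.1 fun hδ => ?_, mul_zero]
    rcases Finset.mem_insert.1 (hPS j hδ) with h2 | h2
    · exact hj (Subtype.ext h2.symm)
    · exact (Finset.mem_sdiff.1 i.2).2 h2

/-- Many independent members of a linear system give a member with vanishing coefficients. -/
theorem ex_of_indep {R : Type*} [CommRing R] [Nontrivial R] {ι : Type} {J : Type*} [Fintype J]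
    {S S' : Finset (Fin 2 →₀ ℕ)} (hS' : S' ⊆ S) {m : ι → ℕ} {w : ι → Fin 2 → R}
    (P : J → MvPolynomial (Fin 2) R) (hS : ∀ j, (P j).support ⊆ S)
    (hm : ∀ j i, MultGE (w i) (m i) (P j)) (hli : ∀ g : J → R, ∑ j, g j • P j = 0 → ∀ j, g j = 0)
    (hc : S.card < S'.card + Fintype.card J) : Ex S' m w := by
  classical
  obtain ⟨g, hg, i, hi⟩ := exists_comb (fun j (s : (S \ S' : Finset _)) => coeff s.1 (P j)) (by
    rw [Fintype.card_coe, Finset.card_sdiff_of_subset hS']
    have := Finset.card_le_card hS'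
    omega)
  obtain ⟨f1, f2⟩ := comb_facts P hS hm g
  refine ⟨_, fun h0 => hi (hli g h0 i), fun δ hδ => ?_, f2⟩
  by_contra hn
  have h1 := congrFun hg ⟨δ, Finset.mem_sdiff.2 ⟨f1 hδ, hn⟩⟩
  rw [Finset.sum_apply] at h1
  refine mem_support_iff.1 hδ ?_
  rw [coeff_sum]
  exact h1

end Lin

open Polynomial

variable {k : Type} [Field k]

/-- The universal unit. -/
noncomputable def xu (k : Type) [Field k] : (LaurentPolynomial k)[X]ˣ :=
  Units.map (C : LaurentPolynomial k →+* (LaurentPolynomial k)[X]).toMonoidHom (Tu k)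

theorem eval_xu (l : LaurentPolynomial k) :
    LaurentPolynomial.eval₂ (algebraMap k (LaurentPolynomial k)[X]) (xu k) l = C l := by
  induction l using LaurentPolynomial.induction_on' with
  | add p q hp hq => rw [map_add, hp, hq, C_add]
  | C_mul_T n a =>
    rw [LaurentPolynomial.eval₂_C_mul_T, xu, ← map_zpow, Units.coe_map, Tu_zpow, C_mul]
    rfl

/-- The coefficient of `x ^ p z ^ q` in the universal value. -/
noncomputable def psi (v : Fin 2 → PowerSeries (LaurentPolynomial k)[X]) (q : ℕ) (p : ℤ) :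
    MvPolynomial (Fin 2) (PowerSeries k) →ₗ[PowerSeries k] PowerSeries k where
  toFun P := PowerSeries.mk fun e => ((PowerSeries.coeff e
    (MvPolynomial.eval₂ (PowerSeries.map (algebraMap k _)) v P)).coeff q).coeff p
  map_add' P Q := by
    ext e
    simp [MvPolynomial.eval₂_add]
  map_smul' a P := by
    ext e
    rw [MvPolynomial.smul_eq_C_mul, PowerSeries.coeff_mk, MvPolynomial.eval₂_mul,
      MvPolynomial.eval₂_C, RingHom.id_apply, smul_eq_mul, PowerSeries.coeff_mul,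
      PowerSeries.coeff_mul, finset_sum_coeff, coeff_sum']
    refine Finset.sum_congr rfl fun x _ => ?_
    rw [PowerSeries.coeff_map, PowerSeries.coeff_mk, Polynomial.algebraMap_apply, coeff_C_mul,
      coeff_algebraMap_mul]

/-- **The dimension bound.** -/
theorem dim [LinearOrder k] [IsStrictOrderedRing k] {ι : Type} [Fintype ι]
    {S : Finset (Fin 2 →₀ ℕ)} {s D Q A B N : ℕ} (hLA : LA k S s D Q A B) (W : ℕ → ℤ → Prop)
    (hW : ∀ q ≤ Q, ∀ p : ℤ, ((A : ℤ) + B) * p ≤ ((D : ℤ) - s * q) * B →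
      -(((A : ℤ) + B) * p) ≤ ((D : ℤ) - s * q) * A → W q (N * q - p))
    (m : ι → ℕ) (L : Finset (ℕ × ℤ))
    (hR : ∀ t, ∃ R : Finset ℤ, R.card ≤ ∑ a, (m a - t) ∧ ∀ (q₁ q₂ : ℕ) (j : ℤ), q₁ + t ≤ q₂ →
      q₂ ≤ Q → W q₁ j → W q₂ j → (q₁, j) ∉ L → (q₂, j) ∉ L → j ∈ R) :
    ∃ (w : ι → Fin 2 → PowerSeries k) (S' : Finset (Fin 2 →₀ ℕ)), S' ⊆ S ∧
      S.card ≤ S'.card + L.card ∧ ¬ Ex S' m w := by
  classical
  obtain ⟨c, xy, hxy⟩ := hLA
  obtain ⟨y, hyi, hy⟩ : ∃ y : ι → k, Function.Injective y ∧ ∀ a, 0 < y a :=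
    ⟨fun a => ((Fintype.equivFin ι a : ℕ) : k) + 1, fun a b h => (Fintype.equivFin ι).injective
      (Fin.ext (Nat.cast_injective (R := k) (add_right_cancel h))), fun a => by positivity⟩
  refine ⟨fun a j => ev1 A B c (Units.mk0 (y a) (hy a).ne')
    ((1 : k[X]).eval (y a) * (y a)⁻¹ ^ N) (xy j), ?_⟩
  rw [← Fintype.card_coe L]
  refine exists_sub S m _ (LinearMap.pi fun x : L =>
    psi (fun j => ev1 A B c (xu k) X (xy j)) x.1.1 (N * x.1.1 - x.1.2)) fun P hP0 hPS hPm hψ => ?_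
  obtain ⟨e, lam, ⟨q₀, hq₀, hlam₀⟩, hwin, hev⟩ := hxy P hP0 hPS
  obtain ⟨H₀, l, hl⟩ := exists_poly Q lam
  have hL : ∀ q ≤ Q, ∀ j, (q, j) ∈ L → (lam q).coeff (N * q - j) = 0 := by
    intro q hq j hj
    have h1 := congrArg (PowerSeries.coeff e) (congrFun hψ ⟨(q, j), hj⟩)
    simp only [LinearMap.pi_apply, psi, LinearMap.coe_mk, AddHom.coe_mk, PowerSeries.coeff_mk,
      hev, eval_xu, finset_sum_coeff, coeff_C_mul, coeff_X_pow, mul_ite, mul_one, mul_zero,
      Finset.sum_ite_eq, Finset.mem_range, Nat.lt_succ_iff, hq, if_true, Pi.zero_apply,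
      map_zero] at h1
    exact h1
  have key : ∀ q ≤ Q, ∀ i : ℕ, (l q * X ^ (N * (Q - q))).coeff i ≠ 0 →
      W q (H₀ + N * Q - i) ∧ (q, (H₀ + N * Q - i : ℤ)) ∉ L := by
    intro q hq i hi
    rw [coeff_mul_X_pow'] at hi
    split_ifs at hi with hle
    swap
    · exact absurd rfl hi
    obtain ⟨j, rfl⟩ := Nat.exists_eq_add_of_le' hle
    rw [Nat.add_sub_cancel, coeff_of_toLaurent (hl q hq)] at hi
    have e1 : (H₀ : ℤ) + N * Q - (j + N * (Q - q) : ℕ) = N * q - (j - H₀) := by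
      push_cast [hq]
      ring
    rw [e1]
    refine ⟨hW q hq _ (hwin q hq _ hi).1 (hwin q hq _ hi).2, fun h => hi ?_⟩
    have := hL q hq _ h
    rwa [sub_sub_cancel] at this
  have hν := tent' (Q := Q) (fun q => l q * X ^ (N * (Q - q))) (fun t => ∑ a, (m a - t))
    (fun t ht => eq_zero_of_card Finset.univ hy _ (prod_dvd _ hyi _ fun a _ => by
      have h3 := point_dvd xy (hy a).ne' 1 1 (hPm a) hl hev t
      rw [finset_sum_coeff] at h3
      refine h3.trans (dvd_of_eq (Finset.sum_congr rfl fun q _ => ?_))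
      rw [C_1, one_mul, coeff_C_mul, coeff_one_add_X_pow, map_natCast, mul_comm]) ht)
    (H₀ + N * Q) fun t => by
      obtain ⟨R, h1, h2⟩ := hR t
      exact ⟨R, h1, fun q₁ q₂ i h12 hq2 w1 w2 => h2 q₁ q₂ _ h12 hq2 (key q₁ (by omega) i w1).1
        (key q₂ hq2 i w2).1 (key q₁ (by omega) i w1).2 (key q₂ hq2 i w2).2⟩
  have h4 : l q₀ = 0 := (mul_eq_zero.1 (hν q₀ hq₀)).resolve_right (pow_ne_zero _ X_ne_zero)
  have h5 := hl q₀ hq₀
  rw [h4, map_zero] at h5
  exact hlam₀ ((LaurentPolynomial.isUnit_T H₀).mul_left_eq_zero.1 h5.symm)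

end Vale.Agent.N279S
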