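import Vale.Agent.N279S.Dim
import Vale.Agent.N279S.Cnt
import Vale.Agent.N279.Main

/-!
# The two estimates at the special points
-/

set_option linter.all false

namespace Vale.Agent.N279S

open Vale.Agent.P279 Vale.Agent.N279 Finset

theorem card_tri_eq (d : ℕ) : 2 * (tri d).card = (d + 1) * (d + 2) := by
  have h1 : (tri d).card = Fintype.card (Gen.RowsAt (d + 1)) := by
    rw [← Fintype.card_coe]
    exact Fintype.card_congr (Equiv.subtypeEquivRight fun δ => by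
      rw [mem_tri]
      simp only [Gen.RowsAt, Set.mem_setOf_eq]
      omega)
  rw [h1, card_rows]

theorem sum_tsub (m M : ℕ) (h : m ≤ M) : 2 * ∑ t ∈ range M, (m - t) = m * (m + 1) := by
  induction m generalizing M with
  | zero => simp
  | succ m ih =>
    obtain ⟨M, rfl⟩ := Nat.exists_eq_add_of_le' (by omega : 1 ≤ M)
    rw [sum_range_succ']
    simp only [Nat.add_sub_add_right, Nat.sub_zero]
    rw [mul_add, ih M (by omega)]
    ring

theorem dim_plane {ι : Type} [Fintype ι] (d : ℕ) {A B N : ℕ} {σ θ : ℝ} (hA : 0 < A) (hB : 0 < B)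
    (hW : ∀ (q : ℕ) (p : ℤ), ((A : ℤ) + B) * p ≤ (((3 * d : ℕ) : ℤ) - 9 * q) * B →
      -(((A : ℤ) + B) * p) ≤ (((3 * d : ℕ) : ℤ) - 9 * q) * A →
        lo σ θ q ≤ N * q - p ∧ N * q - p ≤ hi σ θ (3 * d) q)
    (m : ι → ℕ) (L : Finset (ℕ × ℤ))
    (hR : ∀ t, ∃ R : Finset ℤ, R.card ≤ ∑ a, (m a - t) ∧ ∀ (q₁ q₂ : ℕ) (j : ℤ), q₁ + t ≤ q₂ →
      q₂ ≤ d / 3 → lo σ θ q₁ ≤ j ∧ j ≤ hi σ θ (3 * d) q₁ → lo σ θ q₂ ≤ j ∧ j ≤ hi σ θ (3 * d) q₂ →
        (q₁, j) ∉ L → (q₂, j) ∉ L → j ∈ R) :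
    ∃ (w : ι → Fin 2 → PowerSeries ℚ) (S' : Finset (Fin 2 →₀ ℕ)), S' ⊆ tri d ∧
      (tri d).card ≤ S'.card + L.card ∧ ¬ Ex S' m w :=
  dim (N := N) (la_plane 0 d hA hB) (fun q j => lo σ θ q ≤ j ∧ j ≤ hi σ θ (3 * d) q)
    (fun q _ p h1 h2 => hW q p (by simpa using h1) (by simpa using h2)) m L hR

/-- Independent conditions at the special points. -/
theorem estA {ι : Type} [Fintype ι] (d M : ℕ) (m : ι → ℕ) {ρ : ℝ} (hρ : 9 ≤ ρ)
    (hM : ∀ i, m i ≤ M) (hS : ∑ i, (m i : ℝ) ≤ ρ * M) (hd : (M + 1 / 2) * √ρ ≤ d + 3 / 4) :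
    ∃ (w : ι → Fin 2 → PowerSeries ℚ) (S' : Finset (Fin 2 →₀ ℕ)), S' ⊆ tri d ∧
      ∑ i, m i * (m i + 1) ≤ 2 * S'.card ∧ ¬ Ex S' m w := by
  classical
  have hs : 3 ≤ √ρ := Real.le_sqrt_of_sq_le (by linarith)
  have hs2 : √ρ ^ 2 = ρ := Real.sq_sqrt (by linarith)
  have hM0 : (0 : ℝ) < M + 1 / 2 := by positivity
  obtain ⟨A, B, N, σ, θ, hA, hB, h1, h2, hW, hint⟩ := param (σ₀ := 3 * √ρ)
    (δ := 1 / 8 / (M + 1 / 2)) (by linarith) (by positivity) (3 * d)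
  have hσ : 9 ≤ σ := by linarith
  have h3 : σ * (M + 1 / 2) ≤ 3 * d + 19 / 8 := by
    have := mul_le_mul_of_nonneg_right h2 hM0.le
    rw [add_mul, div_mul_cancel₀ _ hM0.ne'] at this
    linarith
  have h4 : 9 * ρ ≤ σ ^ 2 := by nlinarith
  obtain ⟨R, hR1, hR2⟩ := nested M (U σ θ (3 * d) (d / 3)) (fun t => ∑ a, (m a - t))
    (fun t => U_anti hσ (Nat.le_succ t)) (fun t => sum_le_sum fun a _ => by omega)
    (sum_eq_zero fun a _ => Nat.sub_eq_zero_of_le (hM a)) fun t ht => by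
      have t1 : (t : ℝ) + 1 ≤ M := by exact_mod_cast ht
      have t0 : (0 : ℝ) ≤ t := Nat.cast_nonneg t
      have g1 := lt_card_U (θ := θ) (D := 3 * d) (Q := d / 3) hσ (by omega) (t := t)
        (by push_cast; nlinarith)
      have g2 : ((∑ a, (m a - t) : ℕ) : ℝ) * M ≤ (∑ a, (m a : ℝ)) * (M - t) := by
        rw [Nat.cast_sum, sum_mul, sum_mul]
        refine sum_le_sum fun a _ => ?_
        have g3 : (m a : ℝ) ≤ M := Nat.cast_le.2 (hM a)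
        rcases le_total (m a) t with h | h
        · rw [Nat.sub_eq_zero_of_le h, Nat.cast_zero, zero_mul]
          exact mul_nonneg (Nat.cast_nonneg _) (by linarith)
        · rw [Nat.cast_sub h]
          nlinarith
      have g3 : ((∑ a, (m a - t) : ℕ) : ℝ) ≤ ρ * (M - t) := by
        refine le_of_mul_le_mul_right (g2.trans ?_) (by linarith : (0 : ℝ) < M)
        have := mul_le_mul_of_nonneg_right hS (by linarith : (0 : ℝ) ≤ M - t)
        linarith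
      have g4 := mul_le_mul_of_nonneg_right h4 (by linarith : (0 : ℝ) ≤ M - t)
      have g5 : 9 * (9 / 8) ≤ σ * (3 * d + 7 / 2 - σ * (M + 1 / 2)) :=
        mul_le_mul hσ (by linarith) (by norm_num) (by linarith)
      refine Nat.lt_succ_iff.1 (Nat.cast_lt (α := ℝ).1 ?_)
      push_cast at g1 g3 ⊢
      nlinarith
  set g : ℤ → ℕ := fun j => sInf {q | j ≤ hi σ θ (3 * d) q} with hg
  set T := ((range M).sigma R).image fun x => (g x.2 + x.1, x.2) with hT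
  have hT1 : T ⊆ Lam σ θ (3 * d) (d / 3) 0 := by
    intro x hx
    obtain ⟨⟨t, j⟩, h5, rfl⟩ := mem_image.1 hx
    obtain ⟨q, h6, h7, h8⟩ := mem_U.1 ((hR2 t).1 (mem_sigma.1 h5).2)
    have h9 : g j ≤ q := Nat.sInf_le h8
    have h10 : j ≤ hi σ θ (3 * d) (g j) := Nat.sInf_mem (s := {q | j ≤ hi σ θ (3 * d) q}) ⟨q, h8⟩
    exact mem_Lam.2 ⟨by simp only; omega, (lo_mono hσ θ (by simp only; omega)).trans h7,
      h10.trans (hi_mono hσ θ _ (Nat.le_add_right _ _))⟩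
  have hT2 : 2 * T.card = ∑ i, m i * (m i + 1) := by
    rw [hT, card_image_of_injOn, card_sigma, sum_congr rfl fun t _ => (hR2 t).2, sum_comm, mul_sum]
    · exact sum_congr rfl fun a _ => sum_tsub _ _ (hM a)
    · rintro ⟨t, j⟩ - ⟨t', j'⟩ - h
      obtain ⟨h5, rfl⟩ := Prod.mk.inj h
      obtain rfl : t = t' := add_left_cancel h5
      rfl
  obtain ⟨w, S', f1, f2, f3⟩ := dim_plane d hA hB hW m (Lam σ θ (3 * d) (d / 3) 0 \ T) fun t =>
    ⟨R t, (hR2 t).2.le, fun q₁ q₂ j h12 hq w1 w2 n1 n2 => by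
      have m1 : (q₁, j) ∈ T := by
        by_contra h
        exact n1 (mem_sdiff.2 ⟨mem_Lam.2 ⟨by omega, w1⟩, h⟩)
      have m2 : (q₂, j) ∈ T := by
        by_contra h
        exact n2 (mem_sdiff.2 ⟨mem_Lam.2 ⟨hq, w2⟩, h⟩)
      obtain ⟨⟨t₁, j₁⟩, -, e1⟩ := mem_image.1 m1
      obtain ⟨⟨t₂, j₂⟩, h5, e2⟩ := mem_image.1 m2
      obtain ⟨e3, rfl⟩ := Prod.mk.inj e1
      obtain ⟨e4, rfl⟩ := Prod.mk.inj e2
      simp only at e3 e4
      exact hR1 (by omega : t ≤ t₂) (mem_sigma.1 h5).2⟩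
  refine ⟨w, S', f1, ?_, f3⟩
  have f4 := card_Lam_zero d hint
  have f5 := card_tri_eq d
  have f6 := card_le_card hT1
  rw [card_sdiff_of_subset hT1] at f2
  omega

theorem arithB {s η e t t' d S u : ℝ} (hs : 24 ≤ s ^ 2) (hs0 : 0 ≤ s) (hη : 0 ≤ η) (ht' : 0 ≤ t')
    (htt : t' ≤ t) (hη2 : η * (200 * s * (t + 1)) ≤ 1) (he : e = d - t * s) (he0 : 0 ≤ e)
    (hd : 0 ≤ d) (hS : 2 * (d + 2) * s + (e + 2) ^ 2 ≤ 2 * S + s ^ 2)
    (hu : u ≤ (3 * d - (3 * s - η) * t + 11 / 2) ^ 2 / 18) :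
    u ≤ (e + 2) ^ 2 / 2 ∧ (3 * s - η) * (3 * d - (3 * s - η) * t') / 9 - (3 * s - η) ^ 2 / 18 +
      11 * (3 * s - η) / 18 + 17 / 8 ≤ S - u - s ^ 2 * t' + 1 := by
  have h1 : 4898 / 1000 ≤ s := by nlinarith
  have ht : 0 ≤ t := ht'.trans htt
  have h2 : η * t ≤ 1 / 200 := by nlinarith [mul_nonneg hη ht, mul_nonneg hη hs0]
  have h3 : 0 ≤ η * t := mul_nonneg hη ht
  have h4 : 3 * d - (3 * s - η) * t + 11 / 2 = 3 * e + η * t + 11 / 2 := by rw [he]; ring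
  rw [h4] at hu
  have h5 : u ≤ (e + 2) ^ 2 / 2 - 316 / 1000 := by
    have : (3 * e + η * t + 11 / 2) ^ 2 ≤ (3 * e + 1 / 200 + 11 / 2) ^ 2 := by gcongr
    nlinarith
  refine ⟨by linarith, ?_⟩
  have h6 : η * s * t' ≤ η * s * t := by gcongr
  have h7 : 0 ≤ η * s := mul_nonneg hη hs0
  have h8 : 0 ≤ η * d := mul_nonneg hη hd
  have h9 : 0 ≤ η ^ 2 * t' := by positivity
  nlinarith [sq_nonneg η, mul_nonneg h7 ht]

/-- A small linear system at the special points. -/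
theorem estB {r : ℕ} (hr : 24 ≤ r) (d t : ℕ) (m : Fin r → ℕ) (ht : t * √(r : ℝ) ≤ d)
    (hm : ∀ i, 1 ≤ m i) (hN : ∑ i, (m i : ℝ) ≤ d * √(r : ℝ))
    (hS : 2 * (d + 2) * √(r : ℝ) + (d - t * √(r : ℝ) + 2) ^ 2 ≤ 2 * ∑ i, (m i : ℝ) + r) :
    ∃ (J : Finset (Fin r)) (w : Fin r → Fin 2 → PowerSeries ℚ) (S' : Finset (Fin 2 →₀ ℕ)),
      S' ⊆ tri d ∧ (tri d).card ≤ S'.card + J.card ∧
        ¬ Ex S' (fun a => m a - if a ∈ J then 1 else 0) w := by
  classical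
  have hr' : (24 : ℝ) ≤ r := by exact_mod_cast hr
  have hs2 : √(r : ℝ) ^ 2 = r := Real.sq_sqrt (by linarith)
  have hs0 := Real.sqrt_nonneg (r : ℝ)
  set s := √(r : ℝ) with hs
  have hs4 : 4 ≤ s := by nlinarith
  have t0 : (0 : ℝ) ≤ t := Nat.cast_nonneg t
  have hK : 0 < 200 * s * (t + 1) := by positivity
  have hδ : 1 / (200 * s * (t + 1)) ≤ 1 := by
    rw [div_le_one hK]
    nlinarith
  obtain ⟨A, B, N, σ, θ, hA, hB, h1, h2, hW, -⟩ := param (σ₀ := 3 * s - 1 / (200 * s * (t + 1)))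
    (δ := 1 / (200 * s * (t + 1))) (by linarith) (by positivity) (3 * d)
  have hσ : 9 ≤ σ := by linarith
  obtain ⟨η, rfl⟩ : ∃ η, σ = 3 * s - η := ⟨3 * s - σ, by ring⟩
  set L := Lam (3 * s - η) θ (3 * d) (d / 3) t with hL
  have key := fun (t' : ℝ) (h0 : 0 ≤ t') (h1' : t' ≤ t) => arithB (s := s) (η := η) (d := d)
    (S := ∑ i, (m i : ℝ)) (u := L.card) (by linarith) hs0 (by linarith) h0 h1'
    ((le_div_iff₀ hK).1 (by linarith)) rfl (by linarith) (Nat.cast_nonneg d) (by linarith)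
    (by simpa using card_Lam_le (σ := 3 * s - η) (θ := θ) (D := 3 * d) (Q := d / 3) t)
  have hu : L.card ≤ r := Nat.cast_le (α := ℝ).1 (by
    have := (key 0 le_rfl t0).1
    linarith)
  obtain ⟨J, -, hJ⟩ := exists_subset_card_eq (s := (univ : Finset (Fin r))) (by simpa using hu)
  refine ⟨J, ?_⟩
  rw [hJ]
  refine dim_plane d hA hB hW _ L fun t' => ?_
  rcases lt_or_ge t' t with h | h
  · refine ⟨U (3 * s - η) θ (3 * d) (d / 3) t', ?_, fun q₁ q₂ j h12 hq w1 w2 _ _ =>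
      mem_U.2 ⟨q₁, h12.trans hq, (lo_mono hσ θ h12).trans w2.1, w1.2⟩⟩
    have t1 : (t' : ℝ) + 1 ≤ t := by exact_mod_cast h
    have g1 := card_U_lt (θ := θ) (D := 3 * d) (Q := d / 3) hσ (t := t') (by
      have := mul_le_mul_of_nonneg_left t1 (by linarith : 0 ≤ 3 * s - η)
      have := mul_nonneg (by linarith : 0 ≤ η) t0
      push_cast
      linarith)
    have g2 := (key t' (Nat.cast_nonneg t') (by linarith)).2
    have g3 : ∑ a, ((m a : ℝ) - (if a ∈ J then 1 else 0) - t') ≤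
        ((∑ a, (m a - (if a ∈ J then 1 else 0) - t') : ℕ) : ℝ) := by
      rw [Nat.cast_sum]
      refine sum_le_sum fun a _ => ?_
      have : ((m a : ℤ) - (if a ∈ J then 1 else 0) - t') ≤
          ((m a - (if a ∈ J then 1 else 0) - t' : ℕ) : ℤ) := by split_ifs <;> omega
      exact_mod_cast this
    rw [sum_sub_distrib, sum_sub_distrib, sum_ite_mem, univ_inter, sum_const, sum_const, hJ,
      card_univ, Fintype.card_fin, nsmul_eq_mul, nsmul_eq_mul, mul_one] at g3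
    refine Nat.lt_succ_iff.1 (Nat.cast_lt (α := ℝ).1 ?_)
    rw [Nat.cast_succ]
    rw [hs2] at g2
    rw [Nat.cast_mul, Nat.cast_ofNat] at g1
    linarith
  · refine ⟨∅, Nat.zero_le _, fun q₁ q₂ j h12 hq w1 w2 n1 _ => (n1 (mem_Lam.2
      ⟨by omega, (lo_mono hσ θ (by omega)).trans w2.1, w1.2⟩)).elim⟩

end Vale.Agent.N279S
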