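import Vale.Agent.N279.Core

/-!
# The lacunary tent lemma

By the rule of signs a nonzero real polynomial with `n` positive roots has more than `n` terms.
So in the tent lemma the windows may be arbitrary finite sets instead of intervals.
-/

set_option linter.all false

namespace Vale.Agent.N279S

open Polynomial Vale.Agent.N279

variable {k : Type*} [Field k] [LinearOrder k] [IsStrictOrderedRing k]

theorem sv_lt (f : k[X]) (hf : f ≠ 0) : signVariations f < f.support.card := by
  generalize hn : f.support.card = n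
  induction n generalizing f with
  | zero => exact absurd (card_support_eq_zero.1 hn) hf
  | succ n ih =>
    have h1 := card_support_eraseLead_add_one hf
    by_cases h0 : f.eraseLead = 0
    · have h2 := eraseLead_add_monomial_natDegree_leadingCoeff f
      rw [h0, zero_add] at h2
      rw [← h2, signVariations_monomial]
      omega
    · have := ih _ h0 (by omega)
      have := signVariations_le_eraseLead_succ f
      omega

theorem sv_pow {y : k} (hy : 0 < y) (n : ℕ) {g : k[X]} (hg : g ≠ 0) :
    signVariations g + n ≤ signVariations ((X - C y) ^ n * g) := by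
  induction n with
  | zero => simp
  | succ n ih =>
    have := succ_signVariations_le_X_sub_C_mul hy
      (mul_ne_zero (pow_ne_zero n (X_sub_C_ne_zero y)) hg)
    rw [pow_succ', mul_assoc]
    omega

theorem sv_prod {ι : Type*} (G : Finset ι) {y : ι → k} (hy : ∀ a, 0 < y a) (n : ι → ℕ) {g : k[X]}
    (hg : g ≠ 0) : ∑ a ∈ G, n a ≤ signVariations ((∏ a ∈ G, (X - C (y a)) ^ n a) * g) := by
  classical
  induction G using Finset.induction_on with
  | empty => simp
  | insert a G ha ih =>
    rw [Finset.prod_insert ha, Finset.sum_insert ha, mul_assoc]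
    have := sv_pow (hy a) (n a) (g := (∏ a ∈ G, (X - C (y a)) ^ n a) * g)
      (mul_ne_zero (Finset.prod_ne_zero_iff.2 fun b _ => pow_ne_zero _ (X_sub_C_ne_zero _)) hg)
    omega

/-- A polynomial with many positive roots and few terms vanishes. -/
theorem eq_zero_of_card {ι : Type*} (G : Finset ι) {y : ι → k} (hy : ∀ a, 0 < y a) (n : ι → ℕ)
    {f : k[X]} (hd : ∏ a ∈ G, (X - C (y a)) ^ n a ∣ f) (hc : f.support.card ≤ ∑ a ∈ G, n a) :
    f = 0 := by
  by_contra hf
  obtain ⟨g, rfl⟩ := hd
  have h1 := sv_prod G hy n (right_ne_zero_of_mul hf)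
  have h2 := sv_lt _ hf
  omega

/-- **The lacunary tent lemma.** -/
theorem tent' {Q : ℕ} (ν : ℕ → k[X]) (φ : ℕ → ℕ)
    (hz : ∀ t, (∑ q ∈ Finset.range (Q + 1), C (q.choose t : k) * ν q).support.card ≤ φ t →
      ∑ q ∈ Finset.range (Q + 1), C (q.choose t : k) * ν q = 0) (c : ℤ)
    (hw : ∀ t, ∃ R : Finset ℤ, R.card ≤ φ t ∧ ∀ q₁ q₂ i : ℕ, q₁ + t ≤ q₂ → q₂ ≤ Q →
      (ν q₁).coeff i ≠ 0 → (ν q₂).coeff i ≠ 0 → c - i ∈ R) :
    ∀ q ≤ Q, ν q = 0 := by
  classical
  set g : ℕ → k[X] := fun i => ∑ q ∈ Finset.range (Q + 1), monomial q ((ν q).coeff i) with hg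
  have hgc : ∀ i q, (g i).coeff q = if q ≤ Q then (ν q).coeff i else 0 := by
    intro i q
    simp only [hg, finset_sum_coeff, coeff_monomial]
    rw [Finset.sum_ite_eq']
    simp [Nat.lt_succ_iff]
  have hcomp : ∀ i t, ((g i).comp (X + C 1)).coeff t =
      (∑ q ∈ Finset.range (Q + 1), C (q.choose t : k) * ν q).coeff i := by
    intro i t
    simp only [hg, sum_comp, finset_sum_coeff, monomial_comp, coeff_C_mul, coeff_X_add_C_pow]
    refine Finset.sum_congr rfl fun q _ => ?_
    rw [one_pow, one_mul, mul_comm]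
  have hrow : ∀ t i, (X - C 1) ^ t ∣ g i → g i ≠ 0 →
      ∃ q₁ q₂, q₁ + t ≤ q₂ ∧ q₂ ≤ Q ∧ (ν q₁).coeff i ≠ 0 ∧ (ν q₂).coeff i ≠ 0 := by
    intro t i hd hne
    have h1 : (g i).coeff (g i).natDegree ≠ 0 := leadingCoeff_ne_zero.2 hne
    have h2 : (g i).coeff (g i).natTrailingDegree ≠ 0 := trailingCoeff_nonzero_iff_nonzero.2 hne
    rw [hgc] at h1 h2
    have h3 : (g i).natDegree ≤ Q := by
      by_contra h
      exact h1 (if_neg h)
    have h4 := natTrailingDegree_le_natDegree (g i)
    rw [if_pos h3] at h1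
    rw [if_pos (h4.trans h3)] at h2
    refine ⟨_, _, ?_, h3, h2, h1⟩
    by_contra hlt
    apply hne
    refine eq_zero_of_window (D := (X - C 1) ^ t) (A := (g i).natTrailingDegree) (n := t) ?_ hd ?_ ?_
    · rw [coeff_zero_eq_eval_zero]
      simp
    · rw [natDegree_pow, natDegree_X_sub_C, mul_one]
    · intro j hj
      have h5 := natTrailingDegree_le_of_ne_zero hj
      have h6 := le_natDegree_of_ne_zero hj
      omega
  have key : ∀ t, ∀ i, (X - C 1) ^ t ∣ g i := by
    intro t
    induction t with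
    | zero => intro i; simp
    | succ t ih =>
      obtain ⟨R, hR, hA⟩ := hw t
      have h0 : ∑ q ∈ Finset.range (Q + 1), C (q.choose t : k) * ν q = 0 := by
        refine hz t (le_trans (Finset.card_le_card_of_injOn (fun i : ℕ => c - i) (fun i hi => ?_)
          (fun i _ j _ h => by simpa using h)) hR)
        have hne : g i ≠ 0 := by
          intro h
          apply mem_support_iff.1 (Finset.mem_coe.1 hi)
          rw [← hcomp, h]
          simp
        obtain ⟨q₁, q₂, h1, h2, h3, h4⟩ := hrow t i (ih i) hne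
        exact hA q₁ q₂ i h1 h2 h3 h4
      intro i
      have h1 := ih i
      rw [X_sub_C_pow_dvd_iff, X_pow_dvd_iff] at h1 ⊢
      intro s hs
      rcases Nat.lt_succ_iff_lt_or_eq.1 hs with h | rfl
      · exact h1 s h
      · rw [hcomp, h0, coeff_zero]
  intro q hq
  ext i
  have h1 : g i = 0 := by
    by_contra hne
    obtain ⟨q₁, q₂, h1, h2, -, -⟩ := hrow (Q + 1) i (key _ i) hne
    omega
  have h2 := hgc i q
  rw [h1, if_pos hq] at h2
  simpa using h2.symm

end Vale.Agent.N279S
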