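import Vale.Agent.N279S.Est

/-!
# Generic points: interpolation, the second order bound, and the passage to the projective plane
-/

set_option linter.all false

namespace Vale.Agent.N279S

open Vale.Agent.P279 Vale.Agent.N279 MvPolynomial Finset

section Affine

variable {K : Type} [Field K] [Algebra ℚ K] {r : ℕ} {q : Fin r → Fin 2 → K}

/-- All jets are attained. -/
theorem jets (hq : AlgebraicIndependent ℚ fun x : Fin r × Fin 2 => q x.1 x.2) {d M : ℕ}
    {m : Fin r → ℕ} {ρ : ℝ} (hρ : 9 ≤ ρ) (hM : ∀ i, m i ≤ M) (hS : ∑ i, (m i : ℝ) ≤ ρ * M)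
    (hd : (M + 1 / 2) * √ρ ≤ d + 3 / 4) (w : ∀ i, Bez.bset (m i) (m i) → K) :
    ∃ P : MvPolynomial (Fin 2) K, P.totalDegree ≤ d ∧ Bez.jet q m P = w := by
  classical
  obtain ⟨v, S', h1, h2, h3⟩ := estA d M m hρ hM hS hd
  have h4 : ¬ Ex S' m q := fun h => h3 (transfer (algebraMap ℚ _) hq h v)
  rw [ex_iff, ker_iff, not_not, ← Matrix.mulVec_injective_iff] at h4
  have h5 : Function.Injective (Matrix.mulVecLin (N279.mat S' m q)) := h4
  have h6 := LinearMap.finrank_le_finrank_of_injective h5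
  have h7 : 2 * Fintype.card (Σ i, Gen.RowsAt (m i)) = ∑ i, m i * (m i + 1) := by
    rw [Fintype.card_sigma, mul_sum]
    exact sum_congr rfl fun i _ => card_rows _
  obtain ⟨x, hx⟩ := (LinearMap.injective_iff_surjective_of_finrank_eq_finrank (by
    rw [Module.finrank_fintype_fun_eq_card, Module.finrank_fintype_fun_eq_card,
      Fintype.card_coe] at h6 ⊢
    omega)).1 h5 fun y => w y.1 ⟨y.2.1, y.2.2, lt_of_le_of_lt (Nat.le_add_left _ _) y.2.2⟩
  refine ⟨N279.poly x, Finset.sup_le fun δ hδ => ?_, ?_⟩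
  · rw [Finsupp.sum_fintype _ _ (fun _ => rfl), Fin.sum_univ_two, ← mem_tri]
    by_contra h
    exact mem_support_iff.1 hδ (coeff_poly_of_not x fun h' => h (h1 h'))
  · funext i α
    exact (N279.coeff_shift_poly m q x ⟨i, α.1, α.2.1⟩).trans (congrFun hx _)

/-- The second order bound. -/
theorem second (hq : AlgebraicIndependent ℚ fun x : Fin r × Fin 2 => q x.1 x.2) (hr : 10 ≤ r)
    {d : ℕ} (hd : 1 ≤ d) {m : Fin r → ℕ} (h : Ex (tri d) m q) (hm : ∀ i, 1 ≤ m i) (t : ℕ)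
    (ht : t * √(r : ℝ) ≤ d) :
    2 * ∑ i, (m i : ℝ) + r < 2 * (d + 2) * √(r : ℝ) + (d + 2 - t * √(r : ℝ)) ^ 2 := by
  classical
  have hN := nagata_of hr (plane hq hd le_rfl (by omega) (by simp) h)
  by_contra hcon
  push Not at hcon
  have hr24 : 24 ≤ r := by
    by_contra hlt
    have h1 : (r : ℝ) ≤ 23 := by exact_mod_cast (by omega : r ≤ 23)
    have h2 : √(r : ℝ) ^ 2 = r := Real.sq_sqrt (Nat.cast_nonneg r)
    have h3 := Real.sqrt_nonneg (r : ℝ)
    have h4 : √(r : ℝ) ≤ 48 / 10 := by nlinarith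
    nlinarith
  obtain ⟨J, w, S', h1, h2, h3⟩ := estB hr24 d t m ht hm hN.le (by
    rw [show (d : ℝ) - t * √(r : ℝ) + 2 = d + 2 - t * √(r : ℝ) by ring]
    exact hcon)
  refine h3 (transfer (algebraMap ℚ _) (algebraicIndependent_gen (Fin r)) ?_ w)
  obtain ⟨P, hP0, hPS, hPm⟩ := transfer (algebraMap ℚ (GK (Fin r))) hq h (gen (Fin r))
  have ho : ∀ i, m i ≤ ordAt (gen (Fin r) i) P := fun i => (multGE_iff_le_ordAt _ _ hP0).1 (hPm i)
  choose H g1 g2 g3 g4 using fun i => exists_derivative hP0 i ((hm i).trans (ho i))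
  have mono : ∀ {i a b} {F : MvPolynomial (Fin 2) (GK (Fin r))}, MultGE (gen (Fin r) i) a F →
      b ≤ a → MultGE (gen (Fin r) i) b F := fun hF hab α hα => hF α (hα.trans_le hab)
  refine ex_of_indep h1 (fun o : Option J => o.elim P fun a => H a) ?_ ?_ ?_ (by
    rw [Fintype.card_option, Fintype.card_coe]
    omega)
  · rintro (_ | a)
    · exact hPS
    · exact fun δ hδ => mem_tri.2 (g1 a d 0 (fun ε hε => by
        have := mem_tri.1 (hPS hε)
        omega) δ hδ).1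
  · rintro (_ | a) i
    · exact mono (hPm i) (Nat.sub_le _ _)
    · by_cases hi : i = a
      · subst hi
        refine mono (g3 a) ?_
        rw [if_pos a.2]
        exact Nat.sub_le_sub_right (ho a) 1
      · exact mono (g2 a i hi) ((Nat.sub_le _ _).trans (ho i))
  · intro g hg
    rw [Fintype.sum_option] at hg
    simp only [Option.elim] at hg
    have h4 : ∀ a : J, g (some a) = 0 := by
      intro a
      by_contra hne
      apply g4 a
      rw [← add_sum_erase _ _ (mem_univ a), ← add_assoc, add_right_comm,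
        add_eq_zero_iff_neg_eq] at hg
      have h5 : MultGE (gen (Fin r) a) (ordAt (gen (Fin r) a) P)
          (g none • P + ∑ b ∈ univ.erase a, g (some b) • H b) :=
        ((multGE_ordAt _ hP0).smul _).add (sum_induction _ _ (fun _ _ => MultGE.add) MultGE.zero
          fun b hb => (g2 b a fun e => (mem_erase.1 hb).1 (Subtype.ext e.symm)).smul _)
      have h6 := h5.smul (-(g (some a))⁻¹)
      rwa [neg_smul, ← smul_neg, hg, smul_smul, inv_mul_cancel₀ hne, one_smul] at h6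
    rintro (_ | a)
    · simp only [h4, zero_smul, sum_const_zero, add_zero] at hg
      exact (smul_eq_zero.1 hg).resolve_right hP0
    · exact h4 a

/-- Equal multiplicities. -/
theorem uniform (hq : AlgebraicIndependent ℚ fun x : Fin r × Fin 2 => q x.1 x.2) (hr : 10 ≤ r)
    {d : ℕ} (hd : 1 ≤ d) {μ : ℕ} (hμ : 1 ≤ μ) (h : Ex (tri d) (fun _ => μ) q) :
    (μ + √2 - 1) * √(r : ℝ) - 2 < d := by
  have hN := nagata_of hr (plane hq hd le_rfl (by omega) (by simp) h)
  have hs2 : √(r : ℝ) ^ 2 = r := Real.sq_sqrt (Nat.cast_nonneg r)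
  have hs : 0 < √(r : ℝ) := Real.sqrt_pos.2 (by exact_mod_cast (by omega : 0 < r))
  have h2 : √(2 : ℝ) ^ 2 = 2 := Real.sq_sqrt (by norm_num)
  simp only [sum_const, card_univ, Fintype.card_fin, nsmul_eq_mul] at hN
  have h1 : μ * √(r : ℝ) ≤ d := le_of_mul_le_mul_right (by nlinarith) hs
  have h3 := second hq hr hd h (fun _ => hμ) μ h1
  simp only [sum_const, card_univ, Fintype.card_fin, nsmul_eq_mul] at h3
  have h4 : (√2 * √(r : ℝ)) ^ 2 < (d + 2 - μ * √(r : ℝ) + √(r : ℝ)) ^ 2 := by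
    rw [mul_pow, h2]
    nlinarith
  have h5 := lt_of_pow_lt_pow_left₀ 2 (by linarith) h4
  linarith

end Affine

/-! ### The projective plane -/

theorem aeval_scale {A : Type} [CommRing A] [Algebra ℂ A] {F : MvPolynomial (Fin 3) ℂ} {d : ℕ}
    (hF : F.IsHomogeneous d) (a : A) (v : Fin 3 → A) :
    aeval (fun k => a * v k) F = a ^ d * aeval v F := by
  rw [aeval_def, aeval_def, eval₂_eq', eval₂_eq', mul_sum]
  refine sum_congr rfl fun s hs => ?_
  simp only [mul_pow, prod_mul_distrib]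
  rw [prod_pow_eq_pow_sum, degree_eq hF hs]
  ring

theorem aeval_dehom {A : Type} [CommRing A] [Algebra ℂ A] (F : MvPolynomial (Fin 3) ℂ)
    (v : Fin 3 → A) (hv : v 2 = 1) : aeval (fun k : Fin 2 => v k.castSucc) (dehom F) = aeval v F := by
  rw [dehom, ← AlgHom.comp_apply, comp_aeval]
  congr 2
  funext k
  fin_cases k <;> simp [hv]

theorem mem_iff {F : MvPolynomial (Fin 3) ℂ} {d : ℕ} (hF : F.IsHomogeneous d) {v : Fin 3 → ℂ}
    (hv : v 2 ≠ 0) (m : ℕ) : F ∈ RingHom.ker (eval v) ^ m ↔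
      MultGE (fun k : Fin 2 => v k.castSucc / v 2) m (dehom F) := by
  rw [multGE_iff_ker]
  set q : Fin 2 → ℂ := fun k => v k.castSucc / v 2 with hq
  constructor
  · intro h
    set φ : MvPolynomial (Fin 3) ℂ →ₐ[ℂ] MvPolynomial (Fin 2) ℂ :=
      aeval fun k => C (v 2) * (![X 0, X 1, 1] : Fin 3 → MvPolynomial (Fin 2) ℂ) k with hφ
    have h1 : (eval q).comp φ.toRingHom = eval v := by
      refine ringHom_ext (fun a => by simp [hφ]) fun k => ?_
      fin_cases k <;> simp [hφ, hq] <;> field_simp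
    have h2 : (RingHom.ker (eval v)).map φ.toRingHom ≤ RingHom.ker (eval q) :=
      Ideal.map_le_iff_le_comap.2 (by rw [RingHom.comap_ker, h1])
    have h3 := Ideal.mem_map_of_mem φ.toRingHom h
    rw [Ideal.map_pow] at h3
    have h4 : φ F ∈ _ := Ideal.pow_right_mono h2 m h3
    rw [hφ, aeval_scale hF] at h4
    have h5 := Ideal.mul_mem_left _ (C (v 2)⁻¹ ^ d) h4
    rwa [← mul_assoc, ← mul_pow, ← C_mul, inv_mul_cancel₀ hv, C_1, one_pow, one_mul] at h5
  · intro h
    rcases Nat.eq_zero_or_pos m with rfl | hm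
    · simp
    set I := RingHom.ker (eval v) with hI
    set mk := Ideal.Quotient.mkₐ ℂ (I ^ m) with hmk
    set J := I.map mk.toRingHom with hJ
    have hJm : J ^ m = ⊥ := (Ideal.map_pow _ I m).symm.trans (Ideal.map_quotient_self _)
    set ev := Ideal.Quotient.lift (I ^ m) (eval v) fun a ha => Ideal.pow_le_self hm.ne' ha with hev
    have h1 : ∀ b, ev b = 0 → b ∈ J := fun b hb => by
      obtain ⟨a, rfl⟩ := Ideal.Quotient.mk_surjective b
      exact Ideal.mem_map_of_mem _ hb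
    have h0 : ∀ a, ev (mk a) = eval v a := fun a => rfl
    obtain ⟨u, hu⟩ : IsUnit (mk (X 2)) := by
      have h2 : IsNilpotent (mk (X 2) - mk (C (v 2))) := ⟨m, by
        have := Ideal.pow_mem_pow (h1 (mk (X 2) - mk (C (v 2)))
          (by rw [map_sub, h0, h0, eval_X, eval_C, sub_self])) m
        rwa [hJm, Ideal.mem_bot] at this⟩
      have h3 := h2.isUnit_add_right_of_commute (((IsUnit.mk0 _ hv).map C).map mk) (Commute.all _ _)
      rwa [sub_add_cancel] at h3
    have h2 : ev (u⁻¹ : _ˣ) = (v 2)⁻¹ := by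
      refine eq_inv_of_mul_eq_one_left ?_
      rw [← eval_X (f := v) 2, ← h0, ← hu, ← map_mul, Units.inv_mul, map_one]
    set ψ : MvPolynomial (Fin 2) ℂ →ₐ[ℂ] _ :=
      aeval fun k : Fin 2 => ((u⁻¹ : _ˣ) : _ ⧸ I ^ m) * mk (X k.castSucc) with hψ
    have h3 : ev.comp ψ.toRingHom = eval q := by
      refine ringHom_ext (fun a => ?_) fun k => ?_
      · exact ((congrArg ev (ψ.commutes a)).trans (h0 (C a))).trans (by simp)
      · simp only [hψ, RingHom.comp_apply, AlgHom.toRingHom_eq_coe, RingHom.coe_coe, aeval_X,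
          map_mul, h2, h0, eval_X, hq, div_eq_inv_mul]
    have h4 : (RingHom.ker (eval q)).map ψ.toRingHom ≤ J :=
      Ideal.map_le_iff_le_comap.2 fun a ha => h1 _ (by rw [← h3] at ha; exact ha)
    have h5 := Ideal.mem_map_of_mem ψ.toRingHom h
    rw [Ideal.map_pow] at h5
    have h6 : ψ (dehom F) ∈ _ := Ideal.pow_right_mono h4 m h5
    rw [hJm, Ideal.mem_bot, hψ, aeval_dehom F (fun k => ((u⁻¹ : _ˣ) : _ ⧸ I ^ m) * mk (X k))
      (by rw [← hu, Units.inv_mul]), aeval_scale hF, ← comp_aeval_apply, aeval_X_left_apply,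
      (u⁻¹.isUnit.pow d).mul_right_eq_zero] at h6
    exact Ideal.Quotient.eq_zero_iff_mem.1 h6

theorem exists_hom {d : ℕ} {P : MvPolynomial (Fin 2) ℂ} (h : ∀ δ ∈ P.support, δ 0 + δ 1 ≤ d) :
    ∃ F : MvPolynomial (Fin 3) ℂ, F.IsHomogeneous d ∧ dehom F = P := by
  refine ⟨∑ δ ∈ P.support, C (coeff δ P) * (X 0 ^ δ 0 * X 1 ^ δ 1 * X 2 ^ (d - (δ 0 + δ 1))),
    IsHomogeneous.sum _ _ _ fun δ hδ => IsHomogeneous.C_mul ?_ _, ?_⟩
  · have := ((isHomogeneous_X_pow (R := ℂ) (0 : Fin 3) (δ 0)).mul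
      (isHomogeneous_X_pow (1 : Fin 3) (δ 1))).mul (isHomogeneous_X_pow (2 : Fin 3) (d - (δ 0 + δ 1)))
    rwa [Nat.add_sub_cancel' (h δ hδ)] at this
  · conv_rhs => rw [P.as_sum]
    rw [dehom, map_sum]
    refine sum_congr rfl fun δ _ => ?_
    rw [monomial_eq, Finsupp.prod_fintype _ _ (fun _ => pow_zero _), Fin.prod_univ_two]
    simp

theorem ex_dehom {r d : ℕ} {v : Fin r → Fin 3 → ℂ} (hv : ∀ i, v i 2 ≠ 0)
    {F : MvPolynomial (Fin 3) ℂ} (hF : F.IsHomogeneous d) (h0 : F ≠ 0) {m : Fin r → ℕ}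
    (hm : ∀ i, F ∈ RingHom.ker (eval (v i)) ^ m i) :
    Ex (tri d) m fun i k => v i k.castSucc / v i 2 :=
  ⟨dehom F, dehom_ne_zero hF h0, fun δ hδ => mem_tri.2 (inV_dehom hF δ hδ).1,
    fun i => (mem_iff hF (hv i) _).1 (hm i)⟩

theorem two_choose (n : ℕ) : 2 * (n + 1).choose 2 = n * (n + 1) := by
  rw [Nat.choose_two_right, Nat.add_sub_cancel, mul_comm (n + 1),
    Nat.mul_div_cancel' (Nat.even_mul_succ_self n).two_dvd]

theorem finrank_eq {r d : ℕ} {v : Fin r → Fin 3 → ℂ} (hv : ∀ i, v i 2 ≠ 0) {m : Fin r → ℕ}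
    (h : ∀ w, ∃ P : MvPolynomial (Fin 2) ℂ, P.totalDegree ≤ d ∧
      Bez.jet (fun i k => v i k.castSucc / v i 2) m P = w) :
    Module.finrank ℂ (homogeneousSubmodule (Fin 3) ℂ d ⊓
      ⨅ i, (RingHom.ker (eval (v i)) ^ m i).restrictScalars ℂ : Submodule ℂ _) +
      ∑ i, (m i + 1).choose 2 = (d + 2).choose 2 := by
  set W : Submodule ℂ (MvPolynomial (Fin 3) ℂ) := homogeneousSubmodule (Fin 3) ℂ d ⊓
    ⨅ i, (RingHom.ker (eval (v i)) ^ m i).restrictScalars ℂ with hW
  have hmem : ∀ F, F ∈ W ↔ F.IsHomogeneous d ∧ ∀ i, F ∈ RingHom.ker (eval (v i)) ^ m i := by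
    intro F
    simp only [hW, Submodule.mem_inf, mem_homogeneousSubmodule, Submodule.mem_iInf,
      Submodule.restrictScalars_mem]
  set f : MvPolynomial (Fin 3) ℂ →ₗ[ℂ] MvPolynomial (Fin 2) ℂ :=
    (aeval (![X 0, X 1, 1] : Fin 3 → MvPolynomial (Fin 2) ℂ)).toLinearMap with hf
  have h1 : Function.Injective (f.domRestrict W) := (injective_iff_map_eq_zero _).2 fun F hF => by
    by_contra h0
    exact dehom_ne_zero ((hmem _).1 F.2).1 (fun e => h0 (Subtype.ext e)) hF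
  have h2 : LinearMap.range (f.domRestrict W) = Bez.V ℂ (d + 1) (d + 1) ⊓
      LinearMap.ker (Bez.jet (fun i k => v i k.castSucc / v i 2) m) := by
    ext P
    rw [Submodule.mem_inf, Bez.mem_V, LinearMap.mem_ker, Bez.jet_eq_zero_iff]
    constructor
    · rintro ⟨F, rfl⟩
      obtain ⟨g1, g2⟩ := (hmem _).1 F.2
      exact ⟨fun δ hδ => by have := (inV_dehom g1 δ hδ).1; omega,
        fun i => (mem_iff g1 (hv i) _).1 (g2 i)⟩
    · rintro ⟨g1, g2⟩
      obtain ⟨F, g3, rfl⟩ := exists_hom (d := d) fun δ hδ => by have := (g1 δ hδ).1; omega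
      exact ⟨⟨F, (hmem _).2 ⟨g3, fun i => (mem_iff g3 (hv i) _).2 (g2 i)⟩⟩, rfl⟩
  have h3 := Bez.fiber_eq _ m (d + 1) (d + 1) d (by omega) le_rfl h
  have h4 := Bez.finrank_V (K := ℂ) (d + 1) (d + 1) le_rfl
  have h5 := Bez.finrank_target (K := ℂ) m
  have h6 : 2 * ∑ i, (((m i + 1).choose 2 : ℕ) : ℤ) = ∑ i, (m i : ℤ) * (m i + 1) := by
    rw [mul_sum]
    exact sum_congr rfl fun i _ => by exact_mod_cast two_choose (m i)
  have h7 : 2 * ((d + 2).choose 2 : ℤ) = (d + 1) * (d + 2) := by exact_mod_cast two_choose (d + 1)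
  rw [← h2, LinearMap.finrank_range_of_inj h1] at h3
  rw [h3] at h4
  zify
  push_cast at h4
  linarith

/-- A very general tuple lies outside countably many hypersurfaces. -/
theorem hypersurfaces {r : ℕ} {Q : (Fin r → PPlane) → Prop} (h : VeryGenerally r Q) :
    ∃ G : ℕ → MvPolynomial (Fin r × Fin 3) ℂ,
      (∀ n, (∀ i, ∃ e : ℕ, (G n).IsWeightedHomogeneous (fun x => if x.1 = i then 1 else 0) e) ∧
        ∃ p : Fin r → PPlane, Function.Injective p ∧ eval (fun x => (p x.1).rep x.2) (G n) ≠ 0) ∧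
      ∀ p : Fin r → PPlane, Function.Injective p →
        (∀ n, eval (fun x => (p x.1).rep x.2) (G n) ≠ 0) → Q p := by
  obtain ⟨Z, h1, h2⟩ := h
  choose S hS hZ using fun n => (h1 n).1
  choose p hp hpZ using fun n => (h1 n).2
  have h3 : ∀ n, ∃ G ∈ S n, eval (fun x : Fin r × Fin 3 => (p n x.1).rep x.2) G ≠ 0 := fun n => by
    have := hpZ n
    rw [hZ n] at this
    simpa using this
  choose G hG hG0 using h3
  refine ⟨G, fun n => ⟨fun i => ?_, p n, hp n, hG0 n⟩, fun p' hp' h0 => h2 p' hp' fun n hn => ?_⟩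
  · obtain ⟨e, he⟩ := hS n _ (hG n) i
    refine ⟨e, fun s hs => ?_⟩
    rw [← he s (mem_support_iff.2 hs), Finsupp.weight_apply,
      Finsupp.sum_fintype _ _ (fun _ => by simp), Fintype.sum_prod_type, sum_comm]
    simp
  · rw [hZ n] at hn
    exact h0 n (hn _ (hG n))

end Vale.Agent.N279S
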